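import Mathlib

set_option linter.all false

/-!
# P146: asymmetry of the law with powers of the logarithm, real analysis part

`PR n t` = probability of a deviation `≥ t` above the mean, `PL n t` = below the mean, `V n` = the
variance.  If `PR n (n s) ≥ exp (- n (log n) ^ C s ^ (6/5))` down to `s = n ^ (-5/6) (log n) ^ C`,
`V n ≤ n ^ (1/3) (log n) ^ C` and `PL n (u √V) ≤ exp (-u²/2)`, then in units of the standard
deviation the right tail is at least `exp (- (log n) ^ C' u ^ (6/5))` for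
`(log n) ^ C' ≤ u ≤ δ n ^ (5/6) (log n) ^ (- C')`, `C' = 2 C + 2`, hence it is larger than
`exp (u²/4)` times the left tail.
-/

open Filter Topology

namespace Vale.Agent.P146.H332L

lemma ev_l (K : ℝ) : ∀ᶠ n : ℕ in atTop, K ≤ Real.log (n : ℝ) :=
  (Real.tendsto_log_atTop.comp tendsto_natCast_atTop_atTop).eventually_ge_atTop K

theorem asymL_core {V : ℕ → ℝ} {PR PL : ℕ → ℝ → ℝ} (hV0 : ∀ n, 0 ≤ V n)
    {C δ : ℝ} (hC : 0 ≤ C) (hδ : 0 < δ)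
    (hV : ∀ᶠ n : ℕ in atTop, V n ≤ (n : ℝ) ^ (1 / 3 : ℝ) * Real.log n ^ C)
    (hanti : ∀ n, ∀ s t : ℝ, s ≤ t → PR n t ≤ PR n s)
    (hR : ∀ᶠ n : ℕ in atTop, ∀ s : ℝ,
      (n : ℝ) ^ (-(5 / 6) : ℝ) * Real.log n ^ C ≤ s → s ≤ δ →
        Real.exp (-(n * Real.log n ^ C * s ^ (6 / 5 : ℝ))) ≤ PR n (n * s))
    (hL : ∀ᶠ n : ℕ in atTop, ∀ u : ℝ, 0 ≤ u → PL n (u * √(V n)) ≤ Real.exp (-(u ^ 2 / 2))) :
    ∀ᶠ n : ℕ in atTop, ∀ u : ℝ,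
      Real.log n ^ (2 * C + 2) ≤ u →
      u ≤ δ * ((n : ℝ) ^ (5 / 6 : ℝ) * Real.log n ^ (-(2 * C + 2))) →
        Real.exp (-(Real.log n ^ (2 * C + 2) * u ^ (6 / 5 : ℝ))) ≤ PR n (u * √(V n)) ∧
        PL n (u * √(V n)) ≤ Real.exp (-(u ^ 2 / 2)) ∧
        Real.exp (u ^ 2 / 4) * PL n (u * √(V n)) ≤ PR n (u * √(V n)) := by
  filter_upwards [hV, hR, hL, eventually_ge_atTop 1, ev_l 4] with n g0 g1 g2 g3 g4 u hu hu1
  have hn1 : (1 : ℝ) ≤ n := by exact_mod_cast g3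
  have hn0 : (0 : ℝ) < n := by linarith
  obtain ⟨ℓ, hℓ⟩ : ∃ ℓ, ℓ = Real.log (n : ℝ) := ⟨_, rfl⟩
  rw [← hℓ] at g0 g1 g4 hu hu1 ⊢
  have hℓ1 : (1 : ℝ) ≤ ℓ := by linarith
  have hℓ0 : (0 : ℝ) < ℓ := by linarith
  have hu0 : 0 < u := (Real.rpow_pos_of_pos hℓ0 _).trans_le hu
  -- the deviation `s`
  obtain ⟨s, hs⟩ : ∃ s, s = u * ((n : ℝ) ^ (-(5 / 6) : ℝ) * ℓ ^ (C / 2)) := ⟨_, rfl⟩
  have hs0 : 0 < s := by rw [hs]; positivity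
  have hsV : √(V n) ≤ (n : ℝ) ^ (1 / 6 : ℝ) * ℓ ^ (C / 2) := by
    have h2 : ((n : ℝ) ^ (1 / 6 : ℝ) * ℓ ^ (C / 2)) ^ 2 = (n : ℝ) ^ (1 / 3 : ℝ) * ℓ ^ C := by
      rw [mul_pow, ← Real.rpow_natCast, ← Real.rpow_natCast, ← Real.rpow_mul hn0.le,
        ← Real.rpow_mul hℓ0.le]
      congr 2
      · push_cast; norm_num
      · push_cast; ring
    refine Real.sqrt_le_iff.2 ⟨by positivity, ?_⟩
    rw [h2]
    exact g0
  have hns : n * s = u * ((n : ℝ) ^ (1 / 6 : ℝ) * ℓ ^ (C / 2)) := by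
    have : (n : ℝ) * (n : ℝ) ^ (-(5 / 6) : ℝ) = (n : ℝ) ^ (1 / 6 : ℝ) := by
      nth_rewrite 1 [← Real.rpow_one (n : ℝ)]
      rw [← Real.rpow_add hn0]
      norm_num
    rw [hs, ← this]
    ring
  have hle : u * √(V n) ≤ n * s := by
    rw [hns]
    exact mul_le_mul_of_nonneg_left hsV hu0.le
  have hlow : (n : ℝ) ^ (-(5 / 6) : ℝ) * ℓ ^ C ≤ s := by
    have h1 : ℓ ^ (C / 2) ≤ u :=
      (Real.rpow_le_rpow_of_exponent_le hℓ1 (by linarith)).trans hu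
    have h2 : ℓ ^ C = ℓ ^ (C / 2) * ℓ ^ (C / 2) := by
      rw [← Real.rpow_add hℓ0]; congr 1; ring
    rw [h2, hs]
    calc (n : ℝ) ^ (-(5 / 6) : ℝ) * (ℓ ^ (C / 2) * ℓ ^ (C / 2))
        ≤ (n : ℝ) ^ (-(5 / 6) : ℝ) * (u * ℓ ^ (C / 2)) := by gcongr
      _ = u * ((n : ℝ) ^ (-(5 / 6) : ℝ) * ℓ ^ (C / 2)) := by ring
  have hup : s ≤ δ := by
    have h1 : (n : ℝ) ^ (5 / 6 : ℝ) * (n : ℝ) ^ (-(5 / 6) : ℝ) = 1 := by
      rw [← Real.rpow_add hn0]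
      norm_num
    have h2 : ℓ ^ (-(2 * C + 2)) * ℓ ^ (C / 2) ≤ 1 := by
      rw [← Real.rpow_add hℓ0]
      exact Real.rpow_le_one_of_one_le_of_nonpos hℓ1 (by linarith)
    have h3 : 0 < (n : ℝ) ^ (-(5 / 6) : ℝ) * ℓ ^ (C / 2) := by positivity
    calc s = u * ((n : ℝ) ^ (-(5 / 6) : ℝ) * ℓ ^ (C / 2)) := hs
      _ ≤ (δ * ((n : ℝ) ^ (5 / 6 : ℝ) * ℓ ^ (-(2 * C + 2)))) *
          ((n : ℝ) ^ (-(5 / 6) : ℝ) * ℓ ^ (C / 2)) := mul_le_mul_of_nonneg_right hu1 h3.le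
      _ = δ * ((n : ℝ) ^ (5 / 6 : ℝ) * (n : ℝ) ^ (-(5 / 6) : ℝ)) *
          (ℓ ^ (-(2 * C + 2)) * ℓ ^ (C / 2)) := by ring
      _ ≤ δ * ((n : ℝ) ^ (5 / 6 : ℝ) * (n : ℝ) ^ (-(5 / 6) : ℝ)) * 1 :=
          mul_le_mul_of_nonneg_left h2 (by positivity)
      _ = δ := by rw [h1]; ring
  have h5 := g1 s hlow hup
  -- the exponent
  have hu6 : 0 < u ^ (6 / 5 : ℝ) := Real.rpow_pos_of_pos hu0 _
  have hexp : n * ℓ ^ C * s ^ (6 / 5 : ℝ) = ℓ ^ (8 * C / 5) * u ^ (6 / 5 : ℝ) := by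
    have h1 : s ^ (6 / 5 : ℝ) = u ^ (6 / 5 : ℝ) * ((n : ℝ) ^ (-1 : ℝ) * ℓ ^ (3 * C / 5)) := by
      rw [hs, Real.mul_rpow hu0.le (by positivity), Real.mul_rpow (by positivity) (by positivity),
        ← Real.rpow_mul hn0.le, ← Real.rpow_mul hℓ0.le]
      congr 3
      · norm_num
      · ring
    have h2 : (n : ℝ) * (n : ℝ) ^ (-1 : ℝ) = 1 := by
      rw [Real.rpow_neg_one]
      exact mul_inv_cancel₀ hn0.ne'
    have h3 : ℓ ^ C * ℓ ^ (3 * C / 5) = ℓ ^ (8 * C / 5) := by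
      rw [← Real.rpow_add hℓ0]
      congr 1
      ring
    calc n * ℓ ^ C * s ^ (6 / 5 : ℝ)
        = ((n : ℝ) * (n : ℝ) ^ (-1 : ℝ)) * (ℓ ^ C * ℓ ^ (3 * C / 5)) * u ^ (6 / 5 : ℝ) := by
          rw [h1]; ring
      _ = ℓ ^ (8 * C / 5) * u ^ (6 / 5 : ℝ) := by rw [h2, h3, one_mul]
  have hR1 : Real.exp (-(ℓ ^ (8 * C / 5) * u ^ (6 / 5 : ℝ))) ≤ PR n (u * √(V n)) := by
    rw [← hexp]
    exact h5.trans (hanti n _ _ hle)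
  have hL1 := g2 u hu0.le
  refine ⟨le_trans (Real.exp_le_exp.2 (neg_le_neg ?_)) hR1, hL1, ?_⟩
  · exact mul_le_mul_of_nonneg_right
      (Real.rpow_le_rpow_of_exponent_le hℓ1 (by linarith)) hu6.le
  · -- comparison of the two tails
    have h7 : ℓ ^ (8 * C / 5) * u ^ (6 / 5 : ℝ) ≤ u ^ 2 / 4 := by
      have h8 : u ^ 2 = u ^ (6 / 5 : ℝ) * u ^ (4 / 5 : ℝ) := by
        rw [← Real.rpow_add hu0]
        norm_num
      have h9 : 4 * ℓ ^ (8 * C / 5) ≤ u ^ (4 / 5 : ℝ) := by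
        calc 4 * ℓ ^ (8 * C / 5) ≤ ℓ * ℓ ^ (8 * C / 5) := by gcongr
          _ = ℓ ^ (1 + 8 * C / 5) := by rw [Real.rpow_add hℓ0, Real.rpow_one]
          _ ≤ ℓ ^ ((2 * C + 2) * (4 / 5)) :=
              Real.rpow_le_rpow_of_exponent_le hℓ1 (by linarith)
          _ = (ℓ ^ (2 * C + 2)) ^ (4 / 5 : ℝ) := by rw [← Real.rpow_mul hℓ0.le]
          _ ≤ u ^ (4 / 5 : ℝ) := Real.rpow_le_rpow (by positivity) hu (by norm_num)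
      rw [h8]
      nlinarith
    calc Real.exp (u ^ 2 / 4) * PL n (u * √(V n))
        ≤ Real.exp (u ^ 2 / 4) * Real.exp (-(u ^ 2 / 2)) :=
          mul_le_mul_of_nonneg_left hL1 (Real.exp_pos _).le
      _ = Real.exp (-(u ^ 2 / 4)) := by rw [← Real.exp_add]; congr 1; ring
      _ ≤ Real.exp (-(ℓ ^ (8 * C / 5) * u ^ (6 / 5 : ℝ))) :=
          Real.exp_le_exp.2 (neg_le_neg h7)
      _ ≤ PR n (u * √(V n)) := hR1

end Vale.Agent.P146.H332L
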