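import Vale.Agent.P146.H332L.AsymL
import Vale.Agent.P146.R2.H533.Up2
import Vale.Agent.P146.R2.H533.VarPos
import Vale.Agent.P146.R2.H453.Lo3
import Vale.Agent.P146.H605S.EndL

set_option linter.all false

/-!
# P146: asymmetry of the fluctuations, with powers of the logarithm

In units of the true standard deviation the right tail of the free energy is at least
`exp (- (log n) ^ C u ^ (6/5))` for `(log n) ^ C ≤ u ≤ n ^ (5/6) (log n) ^ (-C)`, the left tail is at
most `exp (-u²/2)`, and the right tail exceeds the left one by the factor `exp (u²/4)`.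
-/

open MeasureTheory ProbabilityTheory Filter Topology

namespace Vale.Agent.P146.H332L

open Vale.Agent.P146 Vale.Agent.P146.H605 Vale.Agent.P146.R2

/-- The right tail. -/
noncomputable def PRt (β : ℝ) (n : ℕ) (t : ℝ) : ℝ :=
  (disorder n).real {g | ∫ h, freeEnergy n β h ∂(disorder n) + t ≤ freeEnergy n β g}

/-- The left tail. -/
noncomputable def PLt (β : ℝ) (n : ℕ) (t : ℝ) : ℝ :=
  (disorder n).real {g | freeEnergy n β g ≤ ∫ h, freeEnergy n β h ∂(disorder n) - t}

lemma PRt_anti (β : ℝ) (n : ℕ) {s t : ℝ} (h : s ≤ t) : PRt β n t ≤ PRt β n s := by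
  have := H260.Dev.prob n
  refine measureReal_mono (fun g hg => ?_) (measure_ne_top _ _)
  simp only [Set.mem_setOf_eq] at hg ⊢
  linarith

/-- **Asymmetry**, from the variance line and the right tail of `H605S.Out`. -/
theorem asymS {β C δ : ℝ} (hβ : 0 < β) (hC : 0 < C) (hδ : 0 < δ) {c g : ℕ → ℝ}
    (h : ∀ᶠ n : ℕ in atTop, H605S.Out β ((Real.log n) ^ C) δ (c n) (g n) n) :
    ∃ D : ℝ, 0 < D ∧ ∀ᶠ n : ℕ in atTop, ∀ u : ℝ,
      (Real.log n) ^ D ≤ u → u ≤ (n : ℝ) ^ (5 / 6 : ℝ) * (Real.log n) ^ (-D) →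
        Real.exp (-((Real.log n) ^ D * u ^ (6 / 5 : ℝ))) ≤
          (disorder n).real {g | ∫ h, freeEnergy n β h ∂(disorder n) +
            u * √(Var[freeEnergy n β; disorder n]) ≤ freeEnergy n β g} ∧
        (disorder n).real {g | freeEnergy n β g ≤ ∫ h, freeEnergy n β h ∂(disorder n) -
            u * √(Var[freeEnergy n β; disorder n])} ≤ Real.exp (-(u ^ 2 / 2)) ∧
        Real.exp (u ^ 2 / 4) * (disorder n).real {g | freeEnergy n β g ≤
            ∫ h, freeEnergy n β h ∂(disorder n) - u * √(Var[freeEnergy n β; disorder n])} ≤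
          (disorder n).real {g | ∫ h, freeEnergy n β h ∂(disorder n) +
            u * √(Var[freeEnergy n β; disorder n]) ≤ freeEnergy n β g} := by
  have key := asymL_core (V := fun n => Var[freeEnergy n β; disorder n]) (PR := PRt β)
    (PL := PLt β) (fun n => variance_nonneg _ _) hC.le hδ (C := C) (δ := δ)
    (by
      filter_upwards [h] with n h1 using h1.var.2)
    (fun n s t h => PRt_anti β n h)
    (by
      filter_upwards [h] with n h1 s h2 h3
      have h4 := (h1.right s h2 h3).1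
      refine le_trans (Real.exp_le_exp.2 (neg_le_neg (le_of_eq ?_))) h4
      ring)
    (by
      filter_upwards [eventually_ge_atTop 2] with n hn u hu
      have hn1 : 1 ≤ n := by omega
      exact H533.gauss hn1 (fun t ht x hx => H453.Lo.sk_LB β hn1 ht.1 ht.2 hx)
        (H533.var_pos_of hn hβ.ne' fun x => Vale.Agent.P146.Sx.integrable_exp n β x) hu)
  refine ⟨2 * C + 3, by linarith, ?_⟩
  filter_upwards [key, ev_l 1, ev_l (1 / δ)] with n h1 h2 h3 u hu hu1
  have hℓ0 : 0 < Real.log (n : ℝ) := by linarith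
  have e1 : Real.log (n : ℝ) ^ (2 * C + 2) ≤ Real.log n ^ (2 * C + 3) :=
    Real.rpow_le_rpow_of_exponent_le h2 (by linarith)
  have hu0 : 0 < u := (Real.rpow_pos_of_pos hℓ0 _).trans_le hu
  have e2 : Real.log (n : ℝ) ^ (-(2 * C + 3)) ≤ δ * Real.log n ^ (-(2 * C + 2)) := by
    have e3 : Real.log (n : ℝ) ^ (-(2 * C + 3)) =
        (Real.log n)⁻¹ * Real.log n ^ (-(2 * C + 2)) := by
      rw [← Real.rpow_neg_one, ← Real.rpow_add hℓ0]
      congr 1
      ring
    have e4 : (Real.log (n : ℝ))⁻¹ ≤ δ := by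
      rw [inv_le_comm₀ hℓ0 hδ, ← one_div]
      exact h3
    rw [e3]
    exact mul_le_mul_of_nonneg_right e4 (Real.rpow_nonneg hℓ0.le _)
  have h4 := h1 u (e1.trans hu) (by
    refine hu1.trans ?_
    calc (n : ℝ) ^ (5 / 6 : ℝ) * Real.log n ^ (-(2 * C + 3)) ≤
        (n : ℝ) ^ (5 / 6 : ℝ) * (δ * Real.log n ^ (-(2 * C + 2))) :=
          mul_le_mul_of_nonneg_left e2 (by positivity)
      _ = δ * ((n : ℝ) ^ (5 / 6 : ℝ) * Real.log n ^ (-(2 * C + 2))) := by ring)
  refine ⟨le_trans (Real.exp_le_exp.2 (neg_le_neg ?_)) h4.1, h4.2.1, h4.2.2⟩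
  exact mul_le_mul_of_nonneg_right e1 (Real.rpow_nonneg hu0.le _)

end Vale.Agent.P146.H332L
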